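import Vale.Agent.P121.Transport

/-! # Three-marginal Coulomb transport without an optimal Monge plan -/

namespace Vale.Agent.Results.P121.NoOptimalMongePlan

open MeasureTheory Vale.Agent.P121
open scoped ENNReal

/-- There is an absolutely continuous probability measure on Euclidean three-space with finite
three-marginal Coulomb value for which no Monge plan is optimal. -/
theorem result :
    ∃ μ : Measure E3, IsProbabilityMeasure μ ∧ μ ≪ volume ∧ kantorovichValue μ < ⊤ ∧
      ∀ T₂ T₃ : E3 → E3, Measurable T₂ → Measurable T₃ → μ.map T₂ = μ → μ.map T₃ = μ →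
        ∫⁻ x, coulombCost (x, T₂ x, T₃ x) ∂μ ≠ kantorovichValue μ :=
  exists_counterexample

end Vale.Agent.Results.P121.NoOptimalMongePlan
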